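import Vale.Agent.P290.SB

namespace Vale.Agent.Results.P290.A_fin

open Vale.Agent.P290.S
open scoped Manifold ContDiff

theorem result {X : Type*} [MetricSpace X] [CompactSpace X] [ChartedSpace C2 X]
    [IsManifold 𝓘(ℂ, C2) ω X] (σ : TwoForm X) {k : ℕ} (π : Fin k → X → P1)
    (hπ : ∀ j, HolP (π j)) (hfin : ∀ x, {y | ∀ j, π j y = π j x}.Finite)
    (hreg : ∀ x, ∃ j, RegP (π j) x) : Oka X :=
  Vale.Agent.P290.sb_fin σ hπ hfin hreg

end Vale.Agent.Results.P290.A_fin
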