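import Vale.Agent.P290.SB

namespace Vale.Agent.Results.P290.B_twist

open Vale.Agent.P290.S
open scoped Manifold ContDiff

theorem result {X X' : Type*} [MetricSpace X] [CompactSpace X] [ChartedSpace C2 X]
    [IsManifold 𝓘(ℂ, C2) ω X] [MetricSpace X'] [CompactSpace X'] [ChartedSpace C2 X']
    [IsManifold 𝓘(ℂ, C2) ω X'] (σ : TwoForm X) :
    (∀ (k : ℕ) (π : Fin k → X → P1), (∀ j, HolP (π j)) →
      (∀ x, {y | ∀ j, π j y = π j x}.Finite) → (∀ x, ∃ j, RegP (π j) x) → Oka X) ∧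
    ∀ (π : X → P1) (π' : X' → P1) (c : ℂ), HolP π → HolP π' → Nonempty (Twist σ π π' c) →
      Oka X → Oka X' :=
  ⟨fun _ _ hπ hfin hreg => Vale.Agent.P290.sb_fin σ hπ hfin hreg,
    fun _ _ _ hπ hπ' W h => Vale.Agent.P290.sb_twist σ hπ hπ' W.some h⟩

end Vale.Agent.Results.P290.B_twist
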