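import Vale.Agent.P290.SD

namespace Vale.Agent.Results.P290.C_all

open Vale.Agent.P290.S
open scoped Manifold ContDiff

theorem result {X : Type*} [MetricSpace X] [CompactSpace X] [ChartedSpace C2 X]
    [IsManifold 𝓘(ℂ, C2) ω X] (σ : TwoForm X) (h : ∀ x : X, Good x ∨ TwGood x) : Oka X :=
  Vale.Agent.P290.sd_all σ h

end Vale.Agent.Results.P290.C_all
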