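import Vale.Agent.P290.SF

namespace Vale.Agent.Results.P290.D_aut

open Vale.Agent.P290.S
open scoped Manifold ContDiff

theorem result {X X' : Type*} [MetricSpace X] [CompactSpace X] [ChartedSpace C2 X]
    [IsManifold 𝓘(ℂ, C2) ω X] [MetricSpace X'] [CompactSpace X'] [ChartedSpace C2 X']
    [IsManifold 𝓘(ℂ, C2) ω X'] (σ : TwoForm X) :
    (∀ π ρ : X → P1, HolP π → HolP ρ → (∃ x, Indep π ρ x) →
      (∀ Z : Set X, Analytic Z → Z ≠ Set.univ → ∀ x, ∃ g : X ≃ X, Biholo g ∧ g x ∉ Z) → Oka X) ∧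
    ((∀ x : X, Good x ∨ TwGood x) → Oka X) ∧
    ∀ (π : X → P1) (π' : X' → P1) (c : ℂ), HolP π → HolP π' → Nonempty (Twist σ π π' c) →
      Oka X → Oka X' :=
  ⟨fun _ _ hπ hρ hI h => Vale.Agent.P290.sf_aut σ hπ hρ hI h, Vale.Agent.P290.sd_all σ,
    fun _ _ _ hπ hπ' W h => Vale.Agent.P290.sb_twist σ hπ hπ' W.some h⟩

end Vale.Agent.Results.P290.D_aut
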